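import Vale.Agent.P365.T2.H213.Spec
import Vale.Agent.P365.H219.TL2

/-!
# P365-T2: growth of the logarithmic energy over one good stage (`StW.Ok`)
-/

set_option linter.all false

namespace P365T2.H188

open P365L P365O P365T1 P365L.TL P365T1.Conc Matrix Complex MeasureTheory Filter Topology Set
open Vale.Agent.P365.J376 P365H219 P365T2.H213
open scoped ComplexConjugate ENNReal

section gen

variable {ι : Type*} [Fintype ι] [DecidableEq ι] {A : Matrix ι ι ℝ}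
  {Λ : Type*} [Fintype Λ] {p : Λ → ℝ} {ν : Λ → Measure ℝ} {E : ℝ}
  {e : (ι → Λ) → ι → ℝ}

/-- the average of `∑ g_x m_x` in 219's form -/
theorem AvG_mm_eq_SG (hA : A.IsSymm) [∀ k, IsProbabilityMeasure (ν k)]
    (he : ∀ l x, 0 < e l x) (g : (ι → Λ) → ι → ℝ) :
    AvG p ν E e (fun l V => ∑ x, g l x * mm A V x) = SG p ν E e g (fun W x => mm A W x) := by
  unfold AvG SG
  refine Finset.sum_congr rfl fun l _ => ?_
  congr 1
  unfold Ex
  rw [integral_finset_sum]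
  · refine Finset.sum_congr rfl fun x _ => ?_
    rw [integral_const_mul]
  · intro x _
    exact (integrable_mm hA (Measure.pi fun x => ν (l x)) E (he l) x).const_mul _

end gen

variable {N : ℕ} [NeZero N]

theorem stw_e_pos {W : StW N} {lam E C1 η : ℝ} (h : W.Ok lam E C1 η) (τ : ℝ) :
    ∀ l x, 0 < eT W.u W.w τ l x := by
  obtain ⟨b, hb, hub⟩ := h.u_pos
  intro l x
  have h1 := eT_pos hb hub h.w_nonneg τ l x
  exact h1

theorem EM_eq_EMG {W : StW N} {lam E C1 η : ℝ} (h : W.Ok lam E C1 η) (τ : ℝ) :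
    W.EM E (eT W.u W.w τ) τ = EMG (AT N) W.p W.ν E (eT W.u W.w τ) := by
  haveI := h.prob
  exact AvG_mm_eq_SG (AT_symm N) (stw_e_pos h τ) _

theorem M4_eq_M4G (W : StW N) (E τ : ℝ) :
    W.M4 E τ = M4G (AT N) W.p W.ν E (phi N) (eT W.u W.w τ) := rfl

/-- threshold for the growth -/
noncomputable def etaL (C1 d0 : ℝ) : ℝ :=
  min (d0 / (64 * C1))
    (1 / (16 / 3 * (Real.log (1 + 32 * C1 / d0) + 1 + (4 * C1 + 2) / d0)))

theorem etaL_pos {C1 d0 : ℝ} (hC : 0 < C1) (hd : 0 < d0) : 0 < etaL C1 d0 := by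
  have h1 : 0 ≤ Real.log (1 + 32 * C1 / d0) := Real.log_nonneg (by
    have : 0 ≤ 32 * C1 / d0 := by positivity
    linarith)
  have h2 : 0 < (4 * C1 + 2) / d0 := by positivity
  unfold etaL
  refine lt_min (by positivity) ?_
  positivity

/-- **growth of `L` over a good stage** -/
theorem growth_stw {lam E C1 η d0 : ℝ} (hC : 0 < C1) (hd : 0 < d0) (hη : 0 < η)
    (hηL : η ≤ etaL C1 d0) {W : StW N} (h : W.Ok lam E C1 η)
    (hD : d0 * (N : ℝ) ^ 2 ≤ W.Phi E (phi N) W.S) :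
    ∃ n : ℕ, (n : ℝ) ≤ W.S ∧ d0 / 16 * W.S * (N : ℝ) ^ 2 ≤
      LG (AT N) W.p W.ν E (phi N) (Finset.range n) (eT W.u W.w W.S) -
        LG (AT N) W.p W.ν E (phi N) (Finset.range n) (eT W.u W.w 0) := by
  haveI := h.prob
  have hS1 : 1 / η ≤ W.S := h.S_ge
  have hS0 : 0 < W.S := lt_of_lt_of_le (by positivity) hS1
  have hB : 0 ≤ Real.log (1 + 32 * C1 / d0) := Real.log_nonneg (by
    have : 0 ≤ 32 * C1 / d0 := by positivity
    linarith)
  have hq : 0 < (4 * C1 + 2) / d0 := by positivity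
  set B : ℝ := Real.log (1 + 32 * C1 / d0) with hBdef
  set Q : ℝ := (4 * C1 + 2) / d0 with hQdef
  have e1 : η ≤ d0 / (64 * C1) := hηL.trans (min_le_left _ _)
  have e2 : η ≤ 1 / (16 / 3 * (B + 1 + Q)) := hηL.trans (min_le_right _ _)
  have hX : 0 < 16 / 3 * (B + 1 + Q) := by positivity
  have e3 : 16 / 3 * (B + 1 + Q) ≤ W.S := by
    refine le_trans ?_ hS1
    rw [le_div_iff₀ hη]
    rw [le_div_iff₀ hX] at e2
    linarith
  have e4 : 4 * (η * W.S * (4 * C1) / d0) ≤ W.S / 4 := by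
    rw [le_div_iff₀ (by positivity)] at e1
    rw [← mul_div_assoc, div_le_iff₀ hd]
    nlinarith
  have h0mem : (0 : ℝ) ∈ Set.Icc 0 W.S := ⟨le_refl _, hS0.le⟩
  have hSmem : W.S ∈ Set.Icc 0 W.S := ⟨hS0.le, le_refl _⟩
  have hP0 : PhiG (AT N) W.p W.ν E (phi N) (eT W.u W.w 0) ≤ 4 * C1 * (N : ℝ) ^ 2 := by
    have h1 := h.en_le 0 h0mem (Fin 4) (phi N) 2 (by norm_num) VecLip_phi
    have h2 : W.Phi E (phi N) 0 = PhiG (AT N) W.p W.ν E (phi N) (eT W.u W.w 0) := rfl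
    rw [← h2]
    refine h1.trans (le_of_eq ?_)
    ring
  have hE1 : EMG (AT N) W.p W.ν E (eT W.u W.w W.S) ≤
      C1 * Real.exp (-W.S) * (N : ℝ) ^ 2 := by
    rw [← EM_eq_EMG h]
    exact h.weg W.S hSmem
  have h41 : M4G (AT N) W.p W.ν E (phi N) (eT W.u W.w 0) ≤
      Real.exp (η * W.S) * (N : ℝ) ^ 2 := by
    rw [← M4_eq_M4G]
    exact h.m4_start
  refine LG_growth_stage (a := phi N) (C₁ := 4 * C1) (Cm := C1) (R₀ := η * W.S)
    (AT_symm N) h.p_nonneg hd (by positivity) hC (by positivity) (by positivity) ?_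
    (stw_e_pos h 0) (stw_e_pos h W.S) hP0 hD hE1 h41
  have e5 : (1 : ℝ) + 8 * (Fintype.card (Fin 4) : ℝ) * C1 / d0 = 1 + 32 * C1 / d0 := by
    rw [Fintype.card_fin]; push_cast; ring
  rw [e5]
  have e6 : ((η * W.S + 1) * (4 * C1) + 2) / d0 = η * W.S * (4 * C1) / d0 + Q := by
    rw [hQdef]; ring
  rw [e6]
  nlinarith

end P365T2.H188
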