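import Vale.Agent.P365.H219.Trig
import Vale.Agent.P365.V4.Def
import Vale.Agent.P365.T1.FarT16

set_option linter.all false

/-!
# P365-T2, row X-LS: lower bound of the logarithmic energy at the end of the good part of a stage

`g` = position functions (`Fin 4`), `fam j g` = 219's truncated test functions of scale `2^j`.
* `En_gap`      : `½ D - 16·4^j Σ_{x∈X} e_x m_x ≤ D - K_j` for every configuration;
* `PhiG_gap`    : the same for the averages over labels and potentials;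
* `MassG_le`    : `Av Σ_{x∈X} e_x m_x ≤ π Σ_l P(l) Σ_{x∈X} e_x dens(l_x)`;
* `PhiG_gap_quarter`, `Lam_ge` : `D - K_j ≥ D/4` for all scales with `64·4^j·π M |X| ≤ D`.
-/

namespace P365T2.H188

open P365L P365O P365T1 P365L.TL Matrix Complex MeasureTheory Filter Topology Set
open Vale.Agent.P365.J376 P365H219
open scoped ComplexConjugate ENNReal

section det

variable {ι : Type*} [Fintype ι] [DecidableEq ι] {A : Matrix ι ι ℝ} {W : ι → ℂ}

/-- total mass of the domain -/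
noncomputable def Ms (A : Matrix ι ι ℝ) (W : ι → ℂ) (X : Finset ι) : ℝ :=
  ∑ x ∈ X, (-(W x).im) * mm A W x

theorem e_mul_mm_le_one' (hA : A.IsSymm) (hW : ∀ x, (W x).im < 0) (x : ι) :
    (-(W x).im) * mm A W x ≤ 1 := by
  have h1 := mm_le_inv hA hW x
  have h2 : 0 < -(W x).im := by linarith [hW x]
  calc (-(W x).im) * mm A W x ≤ (-(W x).im) * (1 / -(W x).im) :=
        mul_le_mul_of_nonneg_left h1 h2.le
    _ = 1 := mul_one_div_cancel h2.ne'

/-- 219's family of scale `2^j` -/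
noncomputable def fam (j : ℕ) (g : Fin 4 → ι → ℝ) (k : Fin 4 × Bool) : ι → ℝ :=
  if k.2 then tc j (g k.1) else ts j (g k.1)

theorem sum_En_fam (W : ι → ℂ) (j : ℕ) (g : Fin 4 → ι → ℝ) :
    ∑ k, En A W (fam j g k) = ∑ x, ∑ y, (-(W x).im) * (-(W y).im) * KK A W x y *
      ∑ i, qk j (g i x - g i y) := by
  rw [Fintype.sum_prod_type]
  have h1 : ∀ i : Fin 4, ∑ b : Bool, En A W (fam j g (i, b)) =
      ∑ x, ∑ y, (-(W x).im) * (-(W y).im) * KK A W x y * qk j (g i x - g i y) := by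
    intro i
    rw [Fintype.sum_bool]
    unfold En fam
    simp only [if_true, Bool.false_eq_true, if_false]
    rw [← Finset.sum_add_distrib]
    refine Finset.sum_congr rfl fun x _ => ?_
    rw [← Finset.sum_add_distrib]
    refine Finset.sum_congr rfl fun y _ => ?_
    rw [← tc_ts_sq]
    ring
  rw [Finset.sum_congr rfl fun i _ => h1 i, Finset.sum_comm]
  refine Finset.sum_congr rfl fun x _ => ?_
  rw [Finset.sum_comm]
  refine Finset.sum_congr rfl fun y _ => ?_
  rw [Finset.mul_sum]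

theorem sum_En_pos (W : ι → ℂ) (g : Fin 4 → ι → ℝ) :
    ∑ i, En A W (g i) = ∑ x, ∑ y, (-(W x).im) * (-(W y).im) * KK A W x y *
      ∑ i, (g i x - g i y) ^ 2 := by
  unfold En
  rw [Finset.sum_comm]
  refine Finset.sum_congr rfl fun x _ => ?_
  rw [Finset.sum_comm]
  refine Finset.sum_congr rfl fun y _ => ?_
  rw [Finset.mul_sum]

theorem kernel_gap (j : ℕ) (u : Fin 4 → ℝ) :
    (∑ i, u i ^ 2) / 2 - 16 * 4 ^ j ≤ ∑ i, (u i ^ 2 - qk j (u i)) := by
  by_cases h : 32 * 4 ^ j ≤ ∑ i, u i ^ 2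
  · have := half_le_sum_sub_qk j u h
    have h4 : (0 : ℝ) < 4 ^ j := by positivity
    linarith
  · have h1 : 0 ≤ ∑ i, (u i ^ 2 - qk j (u i)) :=
      Finset.sum_nonneg fun i _ => sub_nonneg.2 (qk_le_sq j _)
    linarith [not_le.1 h]

/-- **one configuration**: the energy at distances beyond the scale `2^j` -/
theorem En_gap (hA : A.IsSymm) (hW : ∀ x, (W x).im < 0) {X : Finset ι}
    (hX : ∀ x ∉ X, ∀ y, A x y = 0) (j : ℕ) (g : Fin 4 → ι → ℝ) :
    (∑ i, En A W (g i)) / 2 - 16 * 4 ^ j * Ms A W X ≤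
      ∑ i, En A W (g i) - ∑ k, En A W (fam j g k) := by
  have h4 : (0 : ℝ) < 4 ^ j := by positivity
  rw [sum_En_pos, sum_En_fam]
  have hT : ∀ x y, 0 ≤ (-(W x).im) * (-(W y).im) * KK A W x y := fun x y =>
    mul_nonneg (mul_nonneg (by linarith [hW x]) (by linarith [hW y])) (KK_nonneg x y)
  -- termwise
  have h1 : ∀ x y, (-(W x).im) * (-(W y).im) * KK A W x y * (∑ i, (g i x - g i y) ^ 2) / 2 -
      16 * 4 ^ j * (if x ∈ X then (-(W x).im) * (-(W y).im) * KK A W x y else 0) ≤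
      (-(W x).im) * (-(W y).im) * KK A W x y * ∑ i, (g i x - g i y) ^ 2 -
      (-(W x).im) * (-(W y).im) * KK A W x y * ∑ i, qk j (g i x - g i y) := by
    intro x y
    have h5 := kernel_gap j fun i => g i x - g i y
    simp only [Finset.sum_sub_distrib] at h5
    by_cases hx : x ∈ X
    · rw [if_pos hx]
      nlinarith [mul_le_mul_of_nonneg_left h5 (hT x y)]
    · rw [if_neg hx]
      by_cases hxy : y = x
      · subst hxy
        simp [qk]
      · rw [KK_isolated hA hW (hX x hx) hxy]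
        simp
  have h2 := Finset.sum_le_sum fun (x : ι) (_ : x ∈ Finset.univ) =>
    Finset.sum_le_sum fun (y : ι) (_ : y ∈ Finset.univ) => h1 x y
  simp only [Finset.sum_sub_distrib, ← Finset.mul_sum] at h2
  have h3 : ∑ x, ∑ y, (if x ∈ X then (-(W x).im) * (-(W y).im) * KK A W x y else 0) =
      Ms A W X := by
    unfold Ms
    rw [← Finset.sum_filter_add_sum_filter_not Finset.univ (· ∈ X)]
    have e1 : ∑ x ∈ Finset.univ.filter (fun x => ¬ x ∈ X),
        ∑ y, (if x ∈ X then (-(W x).im) * (-(W y).im) * KK A W x y else 0) = 0 := by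
      refine Finset.sum_eq_zero fun x hx => Finset.sum_eq_zero fun y _ => ?_
      rw [if_neg (Finset.mem_filter.1 hx).2]
    rw [e1, add_zero]
    have e2 : Finset.univ.filter (fun x => x ∈ X) = X := by
      ext x; simp
    rw [e2]
    refine Finset.sum_congr rfl fun x hx => ?_
    rw [mm_eq hA hW, Finset.mul_sum]
    refine Finset.sum_congr rfl fun y _ => ?_
    rw [if_pos hx]
    ring
  rw [h3] at h2
  have h6 : ∑ x, ∑ y, (-(W x).im) * (-(W y).im) * KK A W x y * (∑ i, (g i x - g i y) ^ 2) / 2 =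
      (∑ x, ∑ y, (-(W x).im) * (-(W y).im) * KK A W x y * ∑ i, (g i x - g i y) ^ 2) / 2 := by
    rw [Finset.sum_div]
    exact Finset.sum_congr rfl fun x _ => by rw [Finset.sum_div]
  rw [h6] at h2
  exact h2

end det

section avg

variable {ι : Type*} [Fintype ι] [DecidableEq ι] {A : Matrix ι ι ℝ}
  {Λ : Type*} [Fintype Λ] {p : Λ → ℝ} {ν : Λ → Measure ℝ} {E : ℝ}
  {e : (ι → Λ) → ι → ℝ} {X : Finset ι} {g : Fin 4 → ι → ℝ}

/-- average mass of the domain -/
noncomputable def MassG (A : Matrix ι ι ℝ) (p : Λ → ℝ) (ν : Λ → Measure ℝ) (E : ℝ)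
    (e : (ι → Λ) → ι → ℝ) (X : Finset ι) : ℝ :=
  AvG p ν E e fun _ W => Ms A W X

theorem Ms_WV (E : ℝ) (e' v : ι → ℝ) (X : Finset ι) :
    Ms A (WV E e' v) X = ∑ x ∈ X, e' x * mm A (WV E e' v) x := by
  unfold Ms
  refine Finset.sum_congr rfl fun x _ => ?_
  rw [WV_im, neg_neg]

theorem integrable_Ms (hA : A.IsSymm) (m : Measure (ι → ℝ)) [IsFiniteMeasure m] (E : ℝ)
    {e' : ι → ℝ} (he : ∀ x, 0 < e' x) (X : Finset ι) :
    Integrable (fun v => Ms A (WV E e' v) X) m := by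
  have hW : ∀ v x, (WV E e' v x).im < 0 := fun v x => by
    rw [WV_im]; linarith [he x]
  refine Integrable.mono' (integrable_const (X.card : ℝ)) ?_ (Eventually.of_forall fun v => ?_)
  · refine (Measurable.aestronglyMeasurable ?_)
    have h1 : (fun v => Ms A (WV E e' v) X) =
        fun v => ∑ x ∈ X, e' x * mm A (WV E e' v) x := funext fun v => Ms_WV E e' v X
    rw [h1]
    exact Finset.measurable_sum _ fun x _ =>
      ((P365T1.measurable_mm x).comp (measurable_WV E e')).const_mul _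
  · have h0 : 0 ≤ Ms A (WV E e' v) X := Finset.sum_nonneg fun x _ =>
      mul_nonneg (by linarith [hW v x]) (mm_pos hA (hW v) x).le
    rw [Real.norm_eq_abs, abs_of_nonneg h0]
    unfold Ms
    calc ∑ x ∈ X, (-(WV E e' v x).im) * mm A (WV E e' v) x ≤ ∑ x ∈ X, (1 : ℝ) :=
          Finset.sum_le_sum fun x _ => e_mul_mm_le_one' hA (hW v) x
      _ = X.card := by simp

/-- **the average gap** -/
theorem PhiG_gap (hA : A.IsSymm) [∀ k, IsProbabilityMeasure (ν k)] (hp : ∀ k, 0 ≤ p k)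
    (he : ∀ l x, 0 < e l x) (hX : ∀ x ∉ X, ∀ y, A x y = 0) (j : ℕ) :
    PhiG A p ν E g e / 2 - 16 * 4 ^ j * MassG A p ν E e X ≤
      PhiG A p ν E g e - PhiG A p ν E (fam j g) e := by
  have h1 : PhiG A p ν E g e / 2 - 16 * 4 ^ j * MassG A p ν E e X -
      (PhiG A p ν E g e - PhiG A p ν E (fam j g) e) =
      ∑ l : ι → Λ, (∏ x, p (l x)) * (∫ v, ((∑ i, En A (WV E (e l) v) (g i)) / 2 -
        16 * 4 ^ j * Ms A (WV E (e l) v) X - (∑ i, En A (WV E (e l) v) (g i) -
          ∑ k, En A (WV E (e l) v) (fam j g k))) ∂(Measure.pi fun x => ν (l x))) := by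
    have h2 : ∀ l : ι → Λ, (∫ v, ((∑ i, En A (WV E (e l) v) (g i)) / 2 -
        16 * 4 ^ j * Ms A (WV E (e l) v) X - (∑ i, En A (WV E (e l) v) (g i) -
          ∑ k, En A (WV E (e l) v) (fam j g k))) ∂(Measure.pi fun x => ν (l x))) =
        (∫ v, ∑ i, En A (WV E (e l) v) (g i) ∂(Measure.pi fun x => ν (l x))) / 2 -
        16 * 4 ^ j * (∫ v, Ms A (WV E (e l) v) X ∂(Measure.pi fun x => ν (l x))) -
        ((∫ v, ∑ i, En A (WV E (e l) v) (g i) ∂(Measure.pi fun x => ν (l x))) -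
        ∫ v, ∑ k, En A (WV E (e l) v) (fam j g k) ∂(Measure.pi fun x => ν (l x))) := by
      intro l
      have i1 := integrable_sum_En hA (Measure.pi fun x => ν (l x)) E (he l) g
      have i2 := integrable_sum_En hA (Measure.pi fun x => ν (l x)) E (he l) (fam j g)
      have i3 := integrable_Ms hA (Measure.pi fun x => ν (l x)) E (he l) X
      have j1 : Integrable (fun v => (∑ i, En A (WV E (e l) v) (g i)) / 2 -
          16 * 4 ^ j * Ms A (WV E (e l) v) X) (Measure.pi fun x => ν (l x)) :=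
        (i1.div_const 2).sub (i3.const_mul _)
      have j2 : Integrable (fun v => ∑ i, En A (WV E (e l) v) (g i) -
          ∑ k, En A (WV E (e l) v) (fam j g k)) (Measure.pi fun x => ν (l x)) := i1.sub i2
      rw [integral_sub j1 j2, integral_sub (i1.div_const 2) (i3.const_mul _),
        integral_sub i1 i2, integral_div, integral_const_mul]
    simp only [h2]
    unfold PhiG MassG AvG Ex
    rw [Finset.sum_div, Finset.mul_sum, ← Finset.sum_sub_distrib, ← Finset.sum_sub_distrib,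
      ← Finset.sum_sub_distrib]
    refine Finset.sum_congr rfl fun l _ => ?_
    ring
  have h3 : PhiG A p ν E g e / 2 - 16 * 4 ^ j * MassG A p ν E e X -
      (PhiG A p ν E g e - PhiG A p ν E (fam j g) e) ≤ 0 := by
    rw [h1]
    refine Finset.sum_nonpos fun l _ => mul_nonpos_of_nonneg_of_nonpos
      (Finset.prod_nonneg fun x _ => hp _) (integral_nonpos fun v => ?_)
    have hW : ∀ x, (WV E (e l) v x).im < 0 := fun x => by
      rw [WV_im]; linarith [he l x]
    have := En_gap hA hW hX j g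
    simp only [Pi.zero_apply]
    linarith
  linarith

/-- **mean mass** -/
theorem MassG_le (hA : A.IsSymm) [∀ k, IsProbabilityMeasure (ν k)] (hp : ∀ k, 0 ≤ p k)
    (he : ∀ l x, 0 < e l x) {Dn : Λ → ℝ} (hD0 : ∀ k, 0 ≤ Dn k) (hD : ∀ k, DensLe (Dn k) (ν k)) :
    MassG A p ν E e X ≤
      Real.pi * ∑ l : ι → Λ, (∏ x, p (l x)) * ∑ x ∈ X, e l x * Dn (l x) := by
  unfold MassG AvG
  rw [Finset.mul_sum]
  refine Finset.sum_le_sum fun l _ => ?_
  have hP : 0 ≤ ∏ x, p (l x) := Finset.prod_nonneg fun x _ => hp _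
  rw [← mul_assoc, mul_comm Real.pi, mul_assoc]
  refine mul_le_mul_of_nonneg_left ?_ hP
  unfold Ex
  have hW : ∀ v x, (WV E (e l) v x).im < 0 := fun v x => by
    rw [WV_im]; linarith [he l x]
  have i4 : ∀ x, Integrable (fun v => mm A (WV E (e l) v) x)
      (Measure.pi fun x => ν (l x)) := by
    intro x
    have h1 := (integrable_Ms (X := {x}) hA (Measure.pi fun x => ν (l x)) E (he l)).const_mul
      (e l x)⁻¹
    refine h1.congr (Eventually.of_forall fun v => ?_)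
    simp only [Ms_WV, Finset.sum_singleton]
    rw [← mul_assoc, inv_mul_cancel₀ (he l x).ne', one_mul]
  simp only [Ms_WV]
  rw [integral_finset_sum _ fun x _ => (i4 x).const_mul _, Finset.mul_sum]
  refine Finset.sum_le_sum fun x _ => ?_
  rw [integral_const_mul]
  have h2 : ∫ v, mm A (WV E (e l) v) x ∂(Measure.pi fun x => ν (l x)) ≤ Real.pi * Dn (l x) := by
    rw [integral_eq_lintegral_of_nonneg_ae
      (Eventually.of_forall fun v => (mm_pos hA (hW v) x).le)
      ((P365T1.measurable_mm x).comp (measurable_WV E (e l))).aestronglyMeasurable]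
    refine ENNReal.toReal_le_of_le_ofReal (mul_nonneg Real.pi_pos.le (hD0 _)) ?_
    exact lint_mm_le hA (he l) (fun x => ν (l x)) x (hD (l x))
  calc e l x * ∫ v, mm A (WV E (e l) v) x ∂(Measure.pi fun x => ν (l x))
      ≤ e l x * (Real.pi * Dn (l x)) := mul_le_mul_of_nonneg_left h2 (he l x).le
    _ = _ := by ring

theorem sum_prod_eq_one (hs : ∑ k, p k = 1) : ∑ l : ι → Λ, ∏ x, p (l x) = 1 := by
  classical
  have h1 := Finset.prod_univ_sum (fun _ : ι => (Finset.univ : Finset Λ)) fun _ k => p k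
  rw [Fintype.piFinset_univ] at h1
  rw [← h1]
  simp [hs]

/-- mean mass, uniform form -/
theorem MassG_le_card (hA : A.IsSymm) [∀ k, IsProbabilityMeasure (ν k)] (hp : ∀ k, 0 ≤ p k)
    (hs : ∑ k, p k = 1) (he : ∀ l x, 0 < e l x) {Dn : Λ → ℝ} (hD0 : ∀ k, 0 ≤ Dn k)
    (hD : ∀ k, DensLe (Dn k) (ν k)) {M : ℝ} (hM : ∀ l, ∀ x ∈ X, e l x * Dn (l x) ≤ M) :
    MassG A p ν E e X ≤ Real.pi * M * X.card := by
  refine (MassG_le hA hp he hD0 hD).trans ?_
  rw [mul_assoc]
  refine mul_le_mul_of_nonneg_left ?_ Real.pi_pos.le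
  calc ∑ l : ι → Λ, (∏ x, p (l x)) * ∑ x ∈ X, e l x * Dn (l x)
      ≤ ∑ l : ι → Λ, (∏ x, p (l x)) * (M * X.card) := by
        refine Finset.sum_le_sum fun l _ => mul_le_mul_of_nonneg_left ?_
          (Finset.prod_nonneg fun x _ => hp _)
        calc ∑ x ∈ X, e l x * Dn (l x) ≤ ∑ x ∈ X, M := Finset.sum_le_sum fun x hx => hM l x hx
          _ = M * X.card := by rw [Finset.sum_const, nsmul_eq_mul, mul_comm]
    _ = M * X.card := by rw [← Finset.sum_mul, sum_prod_eq_one hs, one_mul]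

/-- **all scales `2^j` with `64 · 4^j · π M |X| ≤ Φ`**: `Φ - K_j ≥ Φ / 4` -/
theorem PhiG_gap_quarter (hA : A.IsSymm) [∀ k, IsProbabilityMeasure (ν k)] (hp : ∀ k, 0 ≤ p k)
    (hs : ∑ k, p k = 1) (he : ∀ l x, 0 < e l x) (hX : ∀ x ∉ X, ∀ y, A x y = 0)
    {Dn : Λ → ℝ} (hD0 : ∀ k, 0 ≤ Dn k) (hD : ∀ k, DensLe (Dn k) (ν k)) {M : ℝ}
    (hM : ∀ l, ∀ x ∈ X, e l x * Dn (l x) ≤ M) {j : ℕ}
    (hj : 64 * 4 ^ j * (Real.pi * M * X.card) ≤ PhiG A p ν E g e) :
    PhiG A p ν E g e / 4 ≤ PhiG A p ν E g e - PhiG A p ν E (fam j g) e := by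
  have h1 := PhiG_gap (ν := ν) (E := E) (g := g) hA hp he hX j
  have h2 := MassG_le_card (ν := ν) (E := E) hA hp hs he hD0 hD hM
  have h4 : (0 : ℝ) < 4 ^ j := by positivity
  have h3 : 16 * 4 ^ j * MassG A p ν E e X ≤ 16 * 4 ^ j * (Real.pi * M * X.card) :=
    mul_le_mul_of_nonneg_left h2 (by positivity)
  linarith

/-- `K_j ≤ Φ` -/
theorem PhiG_fam_le (hA : A.IsSymm) [∀ k, IsProbabilityMeasure (ν k)] (hp : ∀ k, 0 ≤ p k)
    (he : ∀ l x, 0 < e l x) (j : ℕ) :
    PhiG A p ν E (fam j g) e ≤ PhiG A p ν E g e := by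
  unfold PhiG
  refine AvG_mono (ν := ν) (E := E) hp (fun l => integrable_sum_En hA _ E (he l) _)
    (fun l => integrable_sum_En hA _ E (he l) _) fun l v => ?_
  rw [sum_En_fam, sum_En_pos]
  have hW : ∀ x, (WV E (e l) v x).im < 0 := fun x => by
    rw [WV_im]; linarith [he l x]
  refine Finset.sum_le_sum fun x _ => Finset.sum_le_sum fun y _ => ?_
  refine mul_le_mul_of_nonneg_left (Finset.sum_le_sum fun i _ => qk_le_sq j _) ?_
  exact mul_nonneg (mul_nonneg (by linarith [hW x]) (by linarith [hW y])) (KK_nonneg x y)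

/-- **the logarithmic energy is at least `(J₁ + 1) Φ / 4`** when the scales `j ≤ J₁` satisfy
`64 · 4^j · π M |X| ≤ Φ` -/
theorem Lam_ge (hA : A.IsSymm) [∀ k, IsProbabilityMeasure (ν k)] (hp : ∀ k, 0 ≤ p k)
    (hs : ∑ k, p k = 1) (he : ∀ l x, 0 < e l x) (hX : ∀ x ∉ X, ∀ y, A x y = 0)
    {Dn : Λ → ℝ} (hD0 : ∀ k, 0 ≤ Dn k) (hD : ∀ k, DensLe (Dn k) (ν k)) {M : ℝ} (hM0 : 0 ≤ M)
    (hM : ∀ l, ∀ x ∈ X, e l x * Dn (l x) ≤ M) {J J₁ : ℕ} (hJ : J₁ ≤ J)
    (hj : 64 * 4 ^ J₁ * (Real.pi * M * X.card) ≤ PhiG A p ν E g e) :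
    (J₁ + 1) * (PhiG A p ν E g e / 4) ≤
      ∑ j ∈ Finset.range (J + 1), (PhiG A p ν E g e - PhiG A p ν E (fam j g) e) := by
  have hsub : Finset.range (J₁ + 1) ⊆ Finset.range (J + 1) :=
    Finset.range_subset_range.2 (by omega)
  refine le_trans ?_ (Finset.sum_le_sum_of_subset_of_nonneg hsub fun j _ _ =>
    sub_nonneg.2 (PhiG_fam_le hA hp he j))
  have h1 : ∀ j ∈ Finset.range (J₁ + 1), PhiG A p ν E g e / 4 ≤
      PhiG A p ν E g e - PhiG A p ν E (fam j g) e := by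
    intro j hj'
    refine PhiG_gap_quarter hA hp hs he hX hD0 hD hM (le_trans ?_ hj)
    have h2 : (4 : ℝ) ^ j ≤ 4 ^ J₁ :=
      pow_le_pow_right₀ (by norm_num) (by have := Finset.mem_range.1 hj'; omega)
    have h3 : 0 ≤ Real.pi * M * X.card := by positivity
    exact mul_le_mul_of_nonneg_right (by linarith) h3
  calc (J₁ + 1) * (PhiG A p ν E g e / 4)
      = ∑ j ∈ Finset.range (J₁ + 1), PhiG A p ν E g e / 4 := by
        rw [Finset.sum_const, Finset.card_range, nsmul_eq_mul]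
        push_cast
        ring
    _ ≤ _ := Finset.sum_le_sum h1

end avg

/-! ### the profile of stage `i + 1` -/

section inst

variable {D : V3} {N : ℕ} [NeZero N] {ρ : Measure ℝ}

/-- non moving sites carry exactly the background -/
theorem prof_not_mov (h : D.Ok ρ) {i : ℕ} (hi : i ≤ D.I + 1) (s : ℝ) {l : Tor N → D.Λ}
    {x : Tor N} (hx : ¬ D.mov (l x)) : D.prof i s l x = D.b := by
  have h1 : ∀ j, j ≤ D.I → D.wf j l x = 0 := by
    intro j hj
    unfold V3.wf
    rw [if_neg, if_neg hx]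
    intro hc
    apply hx
    have h2 := hc.1 x rfl
    rw [hc.2] at h2
    rw [h2]
    exact h.mov_cen j hj
  have h2 : ∀ j, j ≤ D.I + 1 → D.Ws j l x = 0 := by
    intro j
    induction j with
    | zero =>
      intro _
      simp only [V3.Ws]
      rw [if_neg]
      intro hc
      exact hx (by rw [hc]; exact h.mov_good)
    | succ j ih =>
      intro hj
      simp only [V3.Ws]
      rw [ih (by omega), h1 j (by omega)]
      ring
  unfold V3.prof V3.us
  rw [h2 i hi, Finset.sum_eq_zero fun j hj => by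
    rw [h1 j (by have := Finset.mem_Ico.1 hj; omega), mul_zero]]
  ring

/-- upper bound of the profile of stage `i` at strength `s` -/
theorem prof_le_all (h : D.Ok ρ) {i : ℕ} (hi : i ≤ D.I + 1) {s : ℝ} (hs : 0 ≤ s)
    (l : Tor N → D.Λ) (x : Tor N) :
    D.prof i s l x ≤ D.b + ∑ j ∈ Finset.Ico i (D.I + 1), D.e0 j + 33 * s := by
  unfold V3.prof V3.us
  have h1 : ∑ j ∈ Finset.Ico i (D.I + 1), D.e0 j * D.wf j l x ≤
      ∑ j ∈ Finset.Ico i (D.I + 1), D.e0 j := by
    refine Finset.sum_le_sum fun j hj => ?_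
    have hj' := Finset.mem_Ico.1 hj
    exact mul_le_of_le_one_right (h.e0_pos j (by omega)).le (h.wf_le (by omega) l x)
  have h2 : s * D.Ws i l x ≤ 33 * s := by
    rw [mul_comm]
    exact mul_le_mul_of_nonneg_right (h.Ws_le hi l x) hs
  linarith

/-- `e_x · dens(l_x) ≤ M` for the profile of stage `i` -/
theorem prof_mul_dens_le (h : D.Ok ρ) {i : ℕ} (hi : i ≤ D.I + 1) {s : ℝ} (hs : 0 ≤ s)
    {Dn : D.Λ → ℝ} {D0 M : ℝ} (hD0 : ∀ k, 0 ≤ Dn k) (hDm : ∀ k, D.mov k → Dn k ≤ D0)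
    (hM1 : (D.b + ∑ j ∈ Finset.Ico i (D.I + 1), D.e0 j + 33 * s) * D0 ≤ M)
    (hM2 : ∀ k, D.b * Dn k ≤ M) (l : Tor N → D.Λ) (x : Tor N) :
    D.prof i s l x * Dn (l x) ≤ M := by
  by_cases hx : D.mov (l x)
  · have h1 := prof_le_all h hi hs l x
    have h2 := hDm _ hx
    have h3 := hD0 (l x)
    have h0 : 0 ≤ D.b + ∑ j ∈ Finset.Ico i (D.I + 1), D.e0 j + 33 * s := by
      have h4 : 0 ≤ ∑ j ∈ Finset.Ico i (D.I + 1), D.e0 j := Finset.sum_nonneg fun j hj =>
        (h.e0_pos j (by have := Finset.mem_Ico.1 hj; omega)).le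
      have := h.b_pos
      positivity
    calc D.prof i s l x * Dn (l x)
        ≤ (D.b + ∑ j ∈ Finset.Ico i (D.I + 1), D.e0 j + 33 * s) * Dn (l x) :=
          mul_le_mul_of_nonneg_right h1 h3
      _ ≤ (D.b + ∑ j ∈ Finset.Ico i (D.I + 1), D.e0 j + 33 * s) * D0 :=
          mul_le_mul_of_nonneg_left h2 h0
      _ ≤ M := hM1
  · rw [prof_not_mov h hi s hx]
    exact hM2 _

end inst

end P365T2.H188
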