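import Vale.Agent.P365.T2.H188.LS

set_option linter.all false

/-!
# P365-T2, row X-LS, second part: logarithmic form, `Prf` form, `StW` form
-/

namespace P365T2.H188

open P365L P365O P365T1 P365L.TL Matrix Complex MeasureTheory Filter Topology Set
open Vale.Agent.P365.J376 P365H219
open scoped ComplexConjugate ENNReal

section avg

variable {ι : Type*} [Fintype ι] [DecidableEq ι] {A : Matrix ι ι ℝ}
  {Λ : Type*} [Fintype Λ] {p : Λ → ℝ} {ν : Λ → Measure ℝ} {E : ℝ}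
  {e : (ι → Λ) → ι → ℝ} {X : Finset ι} {g : Fin 4 → ι → ℝ}

theorem MassG_nonneg (hA : A.IsSymm) (hp : ∀ k, 0 ≤ p k) (he : ∀ l x, 0 < e l x) :
    0 ≤ MassG A p ν E e X := by
  unfold MassG AvG Ex
  refine Finset.sum_nonneg fun l _ => mul_nonneg (Finset.prod_nonneg fun x _ => hp _)
    (integral_nonneg fun v => Finset.sum_nonneg fun x _ => ?_)
  have hW : ∀ x, (WV E (e l) v x).im < 0 := fun x => by
    rw [WV_im]; linarith [he l x]
  exact mul_nonneg (by linarith [hW x]) (mm_pos hA hW x).le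

/-- **logarithmic form from a bound of the mean mass**: `Φ ≥ d₀ |X|`, `Av Σ e m ≤ M' |X|` -/
theorem Lam_ge_log (hA : A.IsSymm) [∀ k, IsProbabilityMeasure (ν k)] (hp : ∀ k, 0 ≤ p k)
    (he : ∀ l x, 0 < e l x) (hX : ∀ x ∉ X, ∀ y, A x y = 0) {M d₀ : ℝ} (hM0 : 0 < M) (hd : 0 < d₀)
    (hM : MassG A p ν E e X ≤ M * X.card) (hΦ : d₀ * X.card ≤ PhiG A p ν E g e)
    {J : ℕ} (hJ : Real.log (d₀ / (64 * M)) / Real.log 4 < J + 1) :
    Real.log (d₀ / (64 * M)) / Real.log 4 * (PhiG A p ν E g e / 4) ≤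
      ∑ j ∈ Finset.range (J + 1), (PhiG A p ν E g e - PhiG A p ν E (fam j g) e) := by
  have hΦ0 : 0 ≤ PhiG A p ν E g e := PhiG_nonneg hp fun l x => (he l x).le
  set t : ℝ := Real.log (d₀ / (64 * M)) / Real.log 4 with ht
  have hl4 : 0 < Real.log 4 := Real.log_pos (by norm_num)
  by_cases ht0 : t < 0
  · refine le_trans (mul_nonpos_of_nonpos_of_nonneg ht0.le (by positivity)) ?_
    exact Finset.sum_nonneg fun j _ => sub_nonneg.2 (PhiG_fam_le hA hp he j)
  · have ht0' : 0 ≤ t := not_lt.1 ht0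
    set J₁ : ℕ := ⌊t⌋₊ with hJ₁
    have hJ1 : J₁ ≤ J := by
      have h1 : (J₁ : ℝ) ≤ t := Nat.floor_le ht0'
      have h2 : (J₁ : ℝ) < J + 1 := lt_of_le_of_lt h1 hJ
      exact Nat.lt_succ_iff.1 (by exact_mod_cast h2)
    have h4t : (4 : ℝ) ^ J₁ ≤ d₀ / (64 * M) := by
      have h1 : (J₁ : ℝ) * Real.log 4 ≤ Real.log (d₀ / (64 * M)) := by
        have h2 : (J₁ : ℝ) ≤ t := Nat.floor_le ht0'
        calc (J₁ : ℝ) * Real.log 4 ≤ t * Real.log 4 := mul_le_mul_of_nonneg_right h2 hl4.le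
          _ = _ := by rw [ht, div_mul_cancel₀ _ hl4.ne']
      have h3 : (4 : ℝ) ^ J₁ = Real.exp (J₁ * Real.log 4) := by
        rw [Real.exp_nat_mul, Real.exp_log (by norm_num)]
      rw [h3, ← Real.exp_log (show 0 < d₀ / (64 * M) by positivity)]
      exact Real.exp_le_exp.2 h1
    have hq : ∀ j ≤ J₁, PhiG A p ν E g e / 4 ≤
        PhiG A p ν E g e - PhiG A p ν E (fam j g) e := by
      intro j hj
      have h1 := PhiG_gap (ν := ν) (E := E) (g := g) hA hp he hX j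
      have h2 : (4 : ℝ) ^ j ≤ 4 ^ J₁ := pow_le_pow_right₀ (by norm_num) hj
      have h4 : (0 : ℝ) < 4 ^ j := by positivity
      have h3 : 16 * 4 ^ j * MassG A p ν E e X ≤ PhiG A p ν E g e / 4 := by
        calc 16 * 4 ^ j * MassG A p ν E e X ≤ 16 * 4 ^ j * (M * X.card) :=
              mul_le_mul_of_nonneg_left hM (by positivity)
          _ = 4 ^ j * (16 * M * X.card) := by ring
          _ ≤ (d₀ / (64 * M)) * (16 * M * X.card) :=
              mul_le_mul_of_nonneg_right (h2.trans h4t) (by positivity)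
          _ = (d₀ * X.card) / 4 := by field_simp; ring
          _ ≤ PhiG A p ν E g e / 4 := by linarith
      linarith
    have hsub : Finset.range (J₁ + 1) ⊆ Finset.range (J + 1) :=
      Finset.range_subset_range.2 (by omega)
    refine le_trans ?_ (Finset.sum_le_sum_of_subset_of_nonneg hsub fun j _ _ =>
      sub_nonneg.2 (PhiG_fam_le hA hp he j))
    have hlt : t ≤ (J₁ : ℝ) + 1 := (Nat.lt_floor_add_one t).le
    calc t * (PhiG A p ν E g e / 4) ≤ ((J₁ : ℝ) + 1) * (PhiG A p ν E g e / 4) :=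
          mul_le_mul_of_nonneg_right hlt (by positivity)
      _ = ∑ j ∈ Finset.range (J₁ + 1), PhiG A p ν E g e / 4 := by
          rw [Finset.sum_const, Finset.card_range, nsmul_eq_mul]
          push_cast
          ring
      _ ≤ _ := Finset.sum_le_sum fun j hj => hq j (by have := Finset.mem_range.1 hj; omega)

/-- the logarithm of the mass bound: `M = C e^{-R}` -/
theorem log_form {d₀ C R : ℝ} (hd : 0 < d₀) (hC : 0 < C) :
    Real.log (d₀ / (64 * (C * Real.exp (-R)))) = R - Real.log (64 * C / d₀) := by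
  have h1 : d₀ / (64 * (C * Real.exp (-R))) = Real.exp R * (64 * C / d₀)⁻¹ := by
    rw [Real.exp_neg]
    field_simp
  rw [h1, Real.log_mul (Real.exp_pos R).ne' (by positivity), Real.log_exp, Real.log_inv]
  ring

/-- mean mass when `e_x ≤ ε` at the labels with density at most `D₀`, `e_x ≤ b₁` at the others
(density at most `D₁`) -/
theorem MassG_le_two (hA : A.IsSymm) [∀ k, IsProbabilityMeasure (ν k)] (hp : ∀ k, 0 ≤ p k)
    (hs : ∑ k, p k = 1) (he : ∀ l x, 0 < e l x) {Dn : Λ → ℝ} (hD0 : ∀ k, 0 ≤ Dn k)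
    (hD : ∀ k, DensLe (Dn k) (ν k)) (mov : Λ → Prop) {ε b₁ D₀ D₁ : ℝ} (hε : ∀ l x, e l x ≤ ε)
    (hb₁ : ∀ l x, ¬ mov (l x) → e l x ≤ b₁) (hm : ∀ k, mov k → Dn k ≤ D₀)
    (hn : ∀ k, ¬ mov k → Dn k ≤ D₁) :
    MassG A p ν E e X ≤ Real.pi * max (ε * D₀) (b₁ * D₁) * X.card := by
  refine MassG_le_card hA hp hs he hD0 hD fun l x _ => ?_
  by_cases hx : mov (l x)
  · refine le_trans ?_ (le_max_left _ _)
    exact mul_le_mul (hε l x) (hm _ hx) (hD0 _) ((he l x).le.trans (hε l x))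
  · refine le_trans ?_ (le_max_right _ _)
    exact mul_le_mul (hb₁ l x hx) (hn _ hx) (hD0 _) ((he l x).le.trans (hb₁ l x hx))

end avg

end P365T2.H188
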