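import Vale.Agent.P365.T2.H188.LS2
import Vale.Agent.P365.V4.Datum394

set_option linter.all false

/-!
# P365-T2, row X-LS, third part: mean mass `≤ π ε (Σ_k p_k D_k) |X|` (Wegner, (k5)), datum `D4`
-/

namespace P365T2.H188

open P365L P365O P365T1 P365L.TL Matrix Complex MeasureTheory Filter Topology Set
open Vale.Agent.P365.J376 P365H219
open scoped ComplexConjugate ENNReal

section avg

variable {ι : Type*} [Fintype ι] [DecidableEq ι] {A : Matrix ι ι ℝ}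
  {Λ : Type*} [Fintype Λ] {p : Λ → ℝ} {ν : Λ → Measure ℝ} {E : ℝ}
  {e : (ι → Λ) → ι → ℝ} {X : Finset ι} {g : Fin 4 → ι → ℝ}

/-- marginal of the label average -/
theorem sum_prod_mul_eval (hs : ∑ k, p k = 1) (φ : Λ → ℝ) (x₀ : ι) :
    ∑ l : ι → Λ, (∏ x, p (l x)) * φ (l x₀) = ∑ k, p k * φ k := by
  classical
  have h1 := Finset.prod_univ_sum (fun _ : ι => (Finset.univ : Finset Λ))
    fun x k => if x = x₀ then p k * φ k else p k
  rw [Fintype.piFinset_univ] at h1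
  have h2 : ∏ x : ι, ∑ k, (if x = x₀ then p k * φ k else p k) = ∑ k, p k * φ k := by
    rw [Finset.prod_eq_single x₀]
    · simp
    · intro x _ hx
      simp [hx, hs]
    · intro hx
      exact absurd (Finset.mem_univ x₀) hx
  rw [← h2, h1]
  refine Finset.sum_congr rfl fun l _ => ?_
  have h3 : ∀ x : ι, (if x = x₀ then p (l x) * φ (l x) else p (l x)) =
      p (l x) * (if x = x₀ then φ (l x) else 1) := by
    intro x
    split_ifs <;> simp
  rw [Finset.prod_congr rfl fun x _ => h3 x, Finset.prod_mul_distrib, Finset.prod_ite_eq']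
  simp

/-- **Wegner**: `Av Σ_{x∈X} e_x m_x ≤ π ε (Σ_k p_k D_k) |X|` -/
theorem MassG_le_sup (hA : A.IsSymm) [∀ k, IsProbabilityMeasure (ν k)] (hp : ∀ k, 0 ≤ p k)
    (hs : ∑ k, p k = 1) (he : ∀ l x, 0 < e l x) {Dn : Λ → ℝ} (hD0 : ∀ k, 0 ≤ Dn k)
    (hD : ∀ k, DensLe (Dn k) (ν k)) {ε : ℝ} (hε : ∀ l, ∀ x ∈ X, e l x ≤ ε) :
    MassG A p ν E e X ≤ Real.pi * ε * (∑ k, p k * Dn k) * X.card := by
  refine (MassG_le hA hp he hD0 hD).trans ?_
  have h1 : ∑ l : ι → Λ, (∏ x, p (l x)) * ∑ x ∈ X, e l x * Dn (l x) ≤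
      ∑ l : ι → Λ, (∏ x, p (l x)) * ∑ x ∈ X, ε * Dn (l x) :=
    Finset.sum_le_sum fun l _ => mul_le_mul_of_nonneg_left
      (Finset.sum_le_sum fun x hx => mul_le_mul_of_nonneg_right (hε l x hx) (hD0 _))
      (Finset.prod_nonneg fun x _ => hp _)
  have h2 : ∑ l : ι → Λ, (∏ x, p (l x)) * ∑ x ∈ X, ε * Dn (l x) =
      ε * (∑ k, p k * Dn k) * X.card := by
    have h3 : ∀ l : ι → Λ, (∏ x, p (l x)) * ∑ x ∈ X, ε * Dn (l x) =
        ∑ x ∈ X, ε * ((∏ x, p (l x)) * Dn (l x)) := by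
      intro l
      rw [Finset.mul_sum]
      exact Finset.sum_congr rfl fun x _ => by ring
    rw [Finset.sum_congr rfl fun l _ => h3 l, Finset.sum_comm,
      Finset.sum_congr rfl fun x _ => by
        rw [← Finset.mul_sum, sum_prod_mul_eval hs Dn x], Finset.sum_const, nsmul_eq_mul]
    ring
  calc Real.pi * ∑ l : ι → Λ, (∏ x, p (l x)) * ∑ x ∈ X, e l x * Dn (l x)
      ≤ Real.pi * (ε * (∑ k, p k * Dn k) * X.card) :=
        mul_le_mul_of_nonneg_left (h1.trans h2.le) Real.pi_pos.le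
    _ = _ := by ring

end avg

/-! ### sums of the strengths -/

section seq

open P365T2.SeqG P365V4.Datum

variable {β : ℕ} [Fact (2 ≤ β)] {rs : ℕ}

variable {I : ℕ} {yf : ℕ → ℤ × ℤ} {ρ : Measure ℝ} {N : ℕ} [NeZero N]
  {p : (P4 β yf rs I).Lb → ℝ} {ν : (P4 β yf rs I).Lb → Measure ℝ}

/-- **the profile of stage `i` of the concrete chain is at most `2 e0_i + 33 s`** -/
theorem D4_prof_le (hrs : 2 ≤ rs) (hy : ∀ r, rs ≤ r → yf r ∈ P365SH.Xr r) (h : Lw4 ρ p ν) {i : ℕ}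
    (hi : i ≤ I + 1) {s : ℝ} (hs : 0 ≤ s) (l : Tor N → (D4 p ν).Λ) (x : Tor N) :
    (D4 p ν).prof i s l x ≤ 2 * e0S β rs i + 33 * s := by
  have h1 := prof_le_all (D4_ok hrs hy h) (i := i) hi hs l x
  have h2 := sum_e0S (β := β) hrs I (i := i) hi
  refine h1.trans ?_
  have h3 : (D4 p ν).b = bS β rs I := rfl
  have h4 : ∑ j ∈ Finset.Ico i ((D4 p ν).I + 1), (D4 p ν).e0 j =
      ∑ j ∈ Finset.Ico i (I + 1), e0S β rs j := rfl
  rw [h3, h4]
  linarith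

/-- **(k5) for the concrete chain**, extra absorption `β'` allowed (leads): mean mass of the state
`(i, s)` -/
theorem D4_MassG_le (hrs : 2 ≤ rs) (hy : ∀ r, rs ≤ r → yf r ∈ P365SH.Xr r) (h : Lw4 ρ p ν)
    {A : Matrix (Tor N) (Tor N) ℝ} (hA : A.IsSymm) {E : ℝ} {X : Finset (Tor N)}
    {Dn : (D4 p ν).Λ → ℝ} (hD0 : ∀ k, 0 ≤ Dn k) (hD : ∀ k, DensLe (Dn k) (ν k)) {Dm : ℝ}
    (hDm : ∑ k, p k * Dn k ≤ Dm) {i : ℕ} (hi : i ≤ I + 1) {s b' : ℝ} (hs : 0 ≤ s) (hb' : 0 ≤ b')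
    {e : (Tor N → (D4 p ν).Λ) → Tor N → ℝ} (he0 : ∀ l x, 0 < e l x)
    (he : ∀ l x, e l x ≤ (D4 p ν).prof i s l x + b') :
    MassG A p ν E e X ≤ Real.pi * (2 * e0S β rs i + 33 * s + b') * Dm * X.card := by
  haveI := h.prob
  have hε : ∀ l, ∀ x ∈ X, e l x ≤ 2 * e0S β rs i + 33 * s + b' := fun l x _ =>
    (he l x).trans (by linarith [D4_prof_le hrs hy h hi hs l x])
  have h1 := MassG_le_sup (E := E) hA h.p_nonneg h.p_sum he0 hD0 hD hε
  refine h1.trans ?_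
  have h2 := e0S_pos (β := β) rs i
  have h3 : 0 ≤ Real.pi * (2 * e0S β rs i + 33 * s + b') :=
    mul_nonneg Real.pi_pos.le (by linarith)
  exact mul_le_mul_of_nonneg_right (mul_le_mul_of_nonneg_left hDm h3) (Nat.cast_nonneg _)

end seq

end P365T2.H188
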