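import Vale.Agent.P365.T2.H188.LS3
import Vale.Agent.P365.H219.TL2

set_option linter.all false

/-!
# P365-T2: 219's mass functional `EMG` at the end of the good part of a stage of `D4`
-/

namespace P365T2.H188

open P365L P365O P365T1 P365L.TL Matrix Complex MeasureTheory Filter Topology Set
open Vale.Agent.P365.J376 P365H219
open scoped ComplexConjugate ENNReal

section avg

variable {ι : Type*} [Fintype ι] [DecidableEq ι] {A : Matrix ι ι ℝ}
  {Λ : Type*} [Fintype Λ] {p : Λ → ℝ} {ν : Λ → Measure ℝ} {E : ℝ}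
  {e : (ι → Λ) → ι → ℝ}

/-- 219's mass functional is the mean mass of all sites -/
theorem EMG_eq_MassG (hA : A.IsSymm) [∀ k, IsProbabilityMeasure (ν k)]
    (he : ∀ l x, 0 < e l x) : EMG A p ν E e = MassG A p ν E e Finset.univ := by
  unfold EMG SG MassG AvG
  refine Finset.sum_congr rfl fun l _ => ?_
  congr 1
  unfold Ex
  simp only [Ms_WV]
  rw [integral_finset_sum]
  · refine Finset.sum_congr rfl fun x _ => ?_
    rw [integral_const_mul]
  · intro x _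
    have h1 := integrable_Ms (X := {x}) hA (Measure.pi fun x => ν (l x)) E (he l)
    refine h1.congr (Eventually.of_forall fun v => ?_)
    simp only [Ms_WV, Finset.sum_singleton]

/-- **Wegner for 219's `EMG`** -/
theorem EMG_le_sup (hA : A.IsSymm) [∀ k, IsProbabilityMeasure (ν k)] (hp : ∀ k, 0 ≤ p k)
    (hs : ∑ k, p k = 1) (he : ∀ l x, 0 < e l x) {Dn : Λ → ℝ} (hD0 : ∀ k, 0 ≤ Dn k)
    (hD : ∀ k, DensLe (Dn k) (ν k)) {ε : ℝ} (hε : ∀ l x, e l x ≤ ε) :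
    EMG A p ν E e ≤ Real.pi * ε * (∑ k, p k * Dn k) * Fintype.card ι := by
  rw [EMG_eq_MassG hA he]
  exact MassG_le_sup (X := Finset.univ) hA hp hs he hD0 hD fun l x _ => hε l x

end avg

section seq

open P365T2.SeqG P365V4.Datum

variable {β : ℕ} [Fact (2 ≤ β)] {rs I : ℕ} {yf : ℕ → ℤ × ℤ} {ρ : Measure ℝ} {N : ℕ} [NeZero N]
  {p : (P4 β yf rs I).Lb → ℝ} {ν : (P4 β yf rs I).Lb → Measure ℝ}

/-- **end value**: strength `s ≤ e^{-S}`, `e0_i ≤ e^{-S}`, leads `b' ≤ e^{-S}` -/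
theorem EMG_end_le (hrs : 2 ≤ rs) (hy : ∀ r, rs ≤ r → yf r ∈ P365SH.Xr r) (h : Lw4 ρ p ν)
    {A : Matrix (Tor N) (Tor N) ℝ} (hA : A.IsSymm) {E : ℝ}
    {Dn : (D4 p ν).Λ → ℝ} (hD0 : ∀ k, 0 ≤ Dn k) (hD : ∀ k, DensLe (Dn k) (ν k)) {Dm : ℝ}
    (hDm : ∑ k, p k * Dn k ≤ Dm) {i : ℕ} (hi : i ≤ I + 1) {s b' S : ℝ} (hs : 0 ≤ s)
    (hsS : s ≤ Real.exp (-S)) (hb' : b' ≤ Real.exp (-S)) (he0S : e0S β rs i ≤ Real.exp (-S))
    {e : (Tor N → (D4 p ν).Λ) → Tor N → ℝ} (he0 : ∀ l x, 0 < e l x)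
    (he : ∀ l x, e l x ≤ (D4 p ν).prof i s l x + b') :
    EMG A p ν E e ≤ 36 * Real.pi * Dm * Real.exp (-S) * (N : ℝ) ^ 2 := by
  haveI := h.prob
  have hε : ∀ l x, e l x ≤ 36 * Real.exp (-S) := fun l x =>
    (he l x).trans (by
      have := D4_prof_le hrs hy h hi hs l x
      linarith)
  have h1 := EMG_le_sup (E := E) hA h.p_nonneg h.p_sum he0 hD0 hD hε
  refine h1.trans ?_
  have hcard : (Fintype.card (Tor N) : ℝ) = (N : ℝ) ^ 2 := by
    have h2 : Fintype.card (Tor N) = N * N := by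
      show Fintype.card (ZMod N × ZMod N) = N * N
      rw [Fintype.card_prod, ZMod.card]
    rw [h2]
    push_cast
    ring
  rw [hcard]
  have h3 : 0 ≤ Real.pi * (36 * Real.exp (-S)) := by positivity
  calc Real.pi * (36 * Real.exp (-S)) * (∑ k, p k * Dn k) * (N : ℝ) ^ 2
      ≤ Real.pi * (36 * Real.exp (-S)) * Dm * (N : ℝ) ^ 2 :=
        mul_le_mul_of_nonneg_right (mul_le_mul_of_nonneg_left hDm h3) (by positivity)
    _ = _ := by ring

end seq

end P365T2.H188
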